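import Mathlib

/-!
P352 HM [A1], [A2]: Gaussian integrals in two real variables (helper23)
-/

set_option autoImplicit false
set_option linter.all false

open MeasureTheory Filter Topology

namespace Vale.Agent.P352.HM.H23

/-- products of two Gaussian weights, with complex shift `z` -/
noncomputable def gg (m : ℝ) (z : ℂ) (p : ℝ × ℝ) : ℂ :=
  ((m / Real.pi : ℝ) : ℂ) * Complex.exp (-(m : ℂ) * ((p.1 : ℂ) + z) ^ 2) *
    Complex.exp (-(m : ℂ) * ((p.2 : ℂ) + z) ^ 2)

theorem int_one {a : ℝ} (ha : 0 < a) (c : ℝ) :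
    Integrable fun t : ℝ => Real.exp (-a * t ^ 2 + c * |t|) := by
  have h1 : ∀ c : ℝ, Integrable fun t : ℝ => Real.exp (-a * t ^ 2 + c * t) := by
    intro c
    have h := (integrable_cexp_quadratic (b := (a : ℂ)) (by simpa using ha) (c : ℂ) 0).norm
    refine h.congr (Eventually.of_forall fun t => ?_)
    simp only [Complex.norm_exp]
    congr 1
    simp [← Complex.ofReal_pow]
  refine ((h1 c).add (h1 (-c))).mono' (by fun_prop) (Eventually.of_forall fun t => ?_)
  rw [Real.norm_eq_abs, abs_of_pos (Real.exp_pos _)]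
  simp only [Pi.add_apply]
  rcases abs_choice t with h | h
  · rw [h]
    have := (Real.exp_pos (-a * t ^ 2 + -c * t)).le
    linarith
  · rw [h]
    have := (Real.exp_pos (-a * t ^ 2 + c * t)).le
    have h2 : -a * t ^ 2 + c * -t = -a * t ^ 2 + -c * t := by ring
    rw [h2]
    linarith

theorem int_two {a : ℝ} (ha : 0 < a) (c : ℝ) :
    Integrable fun p : ℝ × ℝ => Real.exp (-a * p.1 ^ 2 + c * |p.1|) *
      Real.exp (-a * p.2 ^ 2 + c * |p.2|) :=
  (int_one ha c).mul_prod (int_one ha c)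

theorem norm_e {m : ℝ} (hm : 0 < m) {z : ℂ} {R : ℝ} (hz : ‖z‖ ≤ R) (t : ℝ) :
    ‖Complex.exp (-(m : ℂ) * ((t : ℂ) + z) ^ 2)‖ ≤
      Real.exp (m * R ^ 2) * Real.exp (-m * t ^ 2 + 2 * m * R * |t|) := by
  rw [Complex.norm_exp, ← Real.exp_add]
  apply Real.exp_le_exp.2
  have h1 : (-(m : ℂ) * ((t : ℂ) + z) ^ 2).re = -m * ((t + z.re) ^ 2 - z.im ^ 2) := by
    simp [pow_two]
  rw [h1]
  have h2 : |z.re| ≤ R := (Complex.abs_re_le_norm z).trans hz
  have h3 : |z.im| ≤ R := (Complex.abs_im_le_norm z).trans hz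
  have h4 : z.im ^ 2 ≤ R ^ 2 := sq_le_sq' (by linarith [neg_abs_le z.im]) (by linarith [le_abs_self z.im])
  have h5 : -(2 * t * z.re) ≤ 2 * R * |t| := by
    have : |t * z.re| ≤ |t| * R := by
      rw [abs_mul]; exact mul_le_mul_of_nonneg_left h2 (abs_nonneg t)
    have := neg_abs_le (t * z.re)
    linarith
  have h6 : 0 ≤ z.re ^ 2 := sq_nonneg _
  nlinarith

theorem norm_gg {m : ℝ} (hm : 0 < m) {z : ℂ} {R : ℝ} (hz : ‖z‖ ≤ R) (p : ℝ × ℝ) :
    ‖gg m z p‖ ≤ (m / Real.pi) * Real.exp (m * R ^ 2) ^ 2 *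
      (Real.exp (-m * p.1 ^ 2 + 2 * m * R * |p.1|) *
        Real.exp (-m * p.2 ^ 2 + 2 * m * R * |p.2|)) := by
  have hp : 0 ≤ m / Real.pi := by positivity
  unfold gg
  rw [norm_mul, norm_mul, Complex.norm_real, Real.norm_eq_abs, abs_of_nonneg hp]
  calc _ ≤ m / Real.pi * (Real.exp (m * R ^ 2) * Real.exp (-m * p.1 ^ 2 + 2 * m * R * |p.1|)) *
        (Real.exp (m * R ^ 2) * Real.exp (-m * p.2 ^ 2 + 2 * m * R * |p.2|)) := by
        gcongr
        · exact norm_e hm hz _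
        · exact norm_e hm hz _
    _ = _ := by ring

theorem cont_gg (m : ℝ) (z : ℂ) : Continuous (gg m z) := by
  unfold gg
  fun_prop

section

variable {m : ℝ} {k : ℝ × ℝ → ℂ} {r C : ℝ}

theorem nonneg_C (hC : ∀ p : ℝ × ℝ, ‖k p‖ ≤ C * Real.exp (r * (|p.1| + |p.2|))) : 0 ≤ C := by
  have h := (norm_nonneg _).trans (hC 0)
  simpa using h

/-- majorant with one more exponential, `j` a factor bounded by `A exp (|p.1| + |p.2|)` -/
theorem major (hm : 0 < m) (hC : ∀ p : ℝ × ℝ, ‖k p‖ ≤ C * Real.exp (r * (|p.1| + |p.2|)))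
    {z : ℂ} {R : ℝ} (hz : ‖z‖ ≤ R) (p : ℝ × ℝ) {w A : ℂ} {B : ℝ} (hB : 0 ≤ B)
    (hw : ‖w‖ ≤ B * Real.exp (|p.1| + |p.2|)) :
    ‖gg m z p * w * k p‖ ≤ (m / Real.pi) * Real.exp (m * R ^ 2) ^ 2 * B * C *
      (Real.exp (-m * p.1 ^ 2 + (2 * m * R + 1 + r) * |p.1|) *
        Real.exp (-m * p.2 ^ 2 + (2 * m * R + 1 + r) * |p.2|)) := by
  have h0 := nonneg_C hC
  rw [norm_mul, norm_mul]
  calc _ ≤ ((m / Real.pi) * Real.exp (m * R ^ 2) ^ 2 *
      (Real.exp (-m * p.1 ^ 2 + 2 * m * R * |p.1|) *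
        Real.exp (-m * p.2 ^ 2 + 2 * m * R * |p.2|))) * (B * Real.exp (|p.1| + |p.2|)) *
        (C * Real.exp (r * (|p.1| + |p.2|))) := by
        have := norm_gg hm hz p
        have h2 := hC p
        gcongr
    _ = (m / Real.pi) * Real.exp (m * R ^ 2) ^ 2 * B * C *
        (Real.exp (-m * p.1 ^ 2 + 2 * m * R * |p.1|) *
        Real.exp (-m * p.2 ^ 2 + 2 * m * R * |p.2|) * Real.exp (|p.1| + |p.2|) *
        Real.exp (r * (|p.1| + |p.2|))) := by ring
    _ = _ := by
        congr 1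
        rw [← Real.exp_add, ← Real.exp_add, ← Real.exp_add, ← Real.exp_add]
        congr 1
        ring

theorem intg (hm : 0 < m) (hk : Continuous k)
    (hC : ∀ p : ℝ × ℝ, ‖k p‖ ≤ C * Real.exp (r * (|p.1| + |p.2|))) (z : ℂ) :
    Integrable fun p => gg m z p * k p := by
  refine ((int_two hm (2 * m * ‖z‖ + 1 + r)).const_mul
    ((m / Real.pi) * Real.exp (m * ‖z‖ ^ 2) ^ 2 * 1 * C)).mono'
    ((cont_gg m z).mul hk).aestronglyMeasurable (Eventually.of_forall fun p => ?_)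
  have h := major (m := m) (k := k) (C := C) (r := r) hm hC (z := z) le_rfl p (w := 1) (A := 0)
    zero_le_one (by
      rw [norm_one, one_mul]
      exact Real.one_le_exp (by positivity))
  rwa [mul_one] at h

theorem hasDerivAt_gg (m : ℝ) (z : ℂ) (p : ℝ × ℝ) :
    HasDerivAt (fun z => gg m z p) (gg m z p *
      (-(2 * m : ℂ) * (((p.1 : ℂ) + z) + ((p.2 : ℂ) + z)))) z := by
  unfold gg
  have h1 : ∀ t : ℝ, HasDerivAt (fun z : ℂ => Complex.exp (-(m : ℂ) * ((t : ℂ) + z) ^ 2))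
      (Complex.exp (-(m : ℂ) * ((t : ℂ) + z) ^ 2) * (-(m : ℂ) * (2 * ((t : ℂ) + z)))) z := by
    intro t
    have h2 : HasDerivAt (fun z : ℂ => -(m : ℂ) * ((t : ℂ) + z) ^ 2)
        (-(m : ℂ) * (2 * ((t : ℂ) + z))) z := by
      have h3 := (((hasDerivAt_id z).const_add (t : ℂ)).pow 2).const_mul (-(m : ℂ))
      refine h3.congr_deriv ?_
      simp
    exact h2.cexp
  have h4 := ((h1 p.1).const_mul ((m / Real.pi : ℝ) : ℂ)).mul (h1 p.2)
  refine h4.congr_deriv ?_
  ring

theorem diffb (hm : 0 < m) (hk : Continuous k)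
    (hC : ∀ p : ℝ × ℝ, ‖k p‖ ≤ C * Real.exp (r * (|p.1| + |p.2|))) :
    Differentiable ℂ fun z => ∫ p, gg m z p * k p := by
  intro z₀
  have h0 := nonneg_C hC
  set R : ℝ := ‖z₀‖ + 1 with hR
  have hb : ∀ z ∈ Metric.ball z₀ 1, ‖z‖ ≤ R := by
    intro z hz
    rw [Metric.mem_ball, dist_eq_norm] at hz
    calc ‖z‖ = ‖z₀ + (z - z₀)‖ := by congr 1; ring
      _ ≤ ‖z₀‖ + ‖z - z₀‖ := norm_add_le _ _
      _ ≤ R := by rw [hR]; linarith
  set F' : ℂ → ℝ × ℝ → ℂ := fun z p => gg m z p *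
      (-(2 * m : ℂ) * (((p.1 : ℂ) + z) + ((p.2 : ℂ) + z))) * k p with hF'
  have key := hasDerivAt_integral_of_dominated_loc_of_deriv_le (μ := (volume : Measure (ℝ × ℝ)))
    (F := fun z p => gg m z p * k p) (F' := F') (x₀ := z₀) (s := Metric.ball z₀ 1)
    (bound := fun p => (m / Real.pi) * Real.exp (m * R ^ 2) ^ 2 * (2 * m * (2 + 2 * R)) * C *
      (Real.exp (-m * p.1 ^ 2 + (2 * m * R + 1 + r) * |p.1|) *
        Real.exp (-m * p.2 ^ 2 + (2 * m * R + 1 + r) * |p.2|)))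
    (Metric.ball_mem_nhds z₀ one_pos)
    (Eventually.of_forall fun z => ((cont_gg m z).mul hk).aestronglyMeasurable)
    (intg hm hk hC z₀)
    (by
      have : Continuous (F' z₀) := by
        rw [hF']
        have := cont_gg m z₀
        fun_prop
      exact this.aestronglyMeasurable)
    (Eventually.of_forall fun p z hz => by
      refine major (m := m) (k := k) (C := C) (r := r) hm hC (hb z hz) p (A := 0) (by positivity) ?_
      have h1 : ‖(p.1 : ℂ) + z + ((p.2 : ℂ) + z)‖ ≤ |p.1| + |p.2| + 2 * R := by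
        have h2 := norm_add_le ((p.1 : ℂ) + z) ((p.2 : ℂ) + z)
        have h3 := norm_add_le (p.1 : ℂ) z
        have h4 := norm_add_le (p.2 : ℂ) z
        rw [Complex.norm_real, Real.norm_eq_abs] at h3 h4
        have := hb z hz
        linarith
      have h5 : |p.1| + |p.2| ≤ Real.exp (|p.1| + |p.2|) := by
        have := Real.add_one_le_exp (|p.1| + |p.2|)
        linarith
      have h6 : (1 : ℝ) ≤ Real.exp (|p.1| + |p.2|) := Real.one_le_exp (by positivity)
      have hR0 : 0 ≤ R := by positivity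
      rw [norm_mul, norm_neg, norm_mul, Complex.norm_ofNat, Complex.norm_real, Real.norm_eq_abs,
        abs_of_pos hm]
      calc 2 * m * ‖(p.1 : ℂ) + z + ((p.2 : ℂ) + z)‖ ≤ 2 * m * (|p.1| + |p.2| + 2 * R) := by
            gcongr
        _ ≤ 2 * m * ((2 + 2 * R) * Real.exp (|p.1| + |p.2|)) := by
            gcongr
            nlinarith
        _ = _ := by ring)
    ((int_two hm _).const_mul _)
    (Eventually.of_forall fun p z hz => (hasDerivAt_gg m z p).mul_const (k p))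
  exact key.2.differentiableAt

theorem growth (hm : 0 < m) (hr : 0 ≤ r) (hk : Continuous k)
    (hC : ∀ p : ℝ × ℝ, ‖k p‖ ≤ C * Real.exp (r * (|p.1| + |p.2|))) {z : ℂ} (hz : |z.im| ≤ 1) :
    ‖∫ p, gg m z p * k p‖ ≤ ((m / Real.pi) * Real.exp m ^ 2 * C *
      (∫ t : ℝ, Real.exp (-m * t ^ 2 + r * |t|)) ^ 2) * Real.exp (2 * r * |z.re|) := by
  have h0 := nonneg_C hC
  set h : ℝ → ℝ := fun t => Real.exp (-m * t ^ 2 + r * |t|) with hh
  have h1 : ∀ t : ℝ, ‖Complex.exp (-(m : ℂ) * ((t : ℂ) + z) ^ 2)‖ * Real.exp (r * |t|) ≤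
      Real.exp m * Real.exp (r * |z.re|) * h (t + z.re) := by
    intro t
    rw [Complex.norm_exp, hh]
    simp only
    rw [← Real.exp_add, ← Real.exp_add, ← Real.exp_add]
    apply Real.exp_le_exp.2
    have h2 : (-(m : ℂ) * ((t : ℂ) + z) ^ 2).re = -m * ((t + z.re) ^ 2 - z.im ^ 2) := by
      simp [pow_two]
    rw [h2]
    have h3 : z.im ^ 2 ≤ 1 := by
      rw [← sq_abs]
      nlinarith [abs_nonneg z.im]
    have h4 : |t| ≤ |t + z.re| + |z.re| := by
      have := abs_sub (t + z.re) z.re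
      rwa [add_sub_cancel_right] at this
    nlinarith [mul_le_mul_of_nonneg_left h4 hr, mul_le_mul_of_nonneg_left h3 hm.le]
  have h5 : Integrable fun p : ℝ × ℝ => h (p.1 + z.re) * h (p.2 + z.re) :=
    ((int_one hm r).comp_add_right z.re).mul_prod ((int_one hm r).comp_add_right z.re)
  calc ‖∫ p, gg m z p * k p‖ ≤ ∫ p : ℝ × ℝ, ((m / Real.pi) * Real.exp m ^ 2 * C *
        Real.exp (r * |z.re|) ^ 2) * (h (p.1 + z.re) * h (p.2 + z.re)) := by
        refine norm_integral_le_of_norm_le (h5.const_mul _) (Eventually.of_forall fun p => ?_)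
        have hp : 0 ≤ m / Real.pi := by positivity
        unfold gg
        rw [norm_mul, norm_mul, norm_mul, Complex.norm_real, Real.norm_eq_abs, abs_of_nonneg hp]
        have h6 := hC p
        calc _ ≤ m / Real.pi * ‖Complex.exp (-(m : ℂ) * ((p.1 : ℂ) + z) ^ 2)‖ *
              ‖Complex.exp (-(m : ℂ) * ((p.2 : ℂ) + z) ^ 2)‖ *
              (C * Real.exp (r * (|p.1| + |p.2|))) := by gcongr
          _ = m / Real.pi * C * (‖Complex.exp (-(m : ℂ) * ((p.1 : ℂ) + z) ^ 2)‖ *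
              Real.exp (r * |p.1|)) * (‖Complex.exp (-(m : ℂ) * ((p.2 : ℂ) + z) ^ 2)‖ *
              Real.exp (r * |p.2|)) := by
              rw [mul_add, Real.exp_add]
              ring
          _ ≤ m / Real.pi * C * (Real.exp m * Real.exp (r * |z.re|) * h (p.1 + z.re)) *
              (Real.exp m * Real.exp (r * |z.re|) * h (p.2 + z.re)) := by
              have e1 := h1 p.1
              have e2 := h1 p.2
              gcongr
          _ = _ := by ring
    _ = _ := by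
        rw [integral_const_mul]
        have h7 : ∫ p : ℝ × ℝ, h (p.1 + z.re) * h (p.2 + z.re) = (∫ t, h t) ^ 2 := by
          rw [Measure.volume_eq_prod, integral_prod_mul (fun t => h (t + z.re))
            (fun t => h (t + z.re)), integral_add_right_eq_self h z.re, sq]
        have h8 : Real.exp (r * |z.re|) ^ 2 = Real.exp (2 * r * |z.re|) := by
          rw [← Real.exp_nat_mul]
          congr 1
          push_cast
          ring
        rw [h7, h8]
        ring

end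

end Vale.Agent.P352.HM.H23
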