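import Vale.Agent.P352.HM.Lit
import Vale.Agent.P352.HM.H23.Core

/-!
P352 HM [A1], [A2] (helper23)
-/

set_option linter.all false

open MeasureTheory Filter Topology

namespace Vale.Agent.P352.HM.H23

theorem gg_eq (m : ℝ) (z : ℂ) (p : ℝ × ℝ) : H23.gg m z p = HM.gg m z p := rfl

theorem a1 : HM.A1Stmt := by
  intro m k r hm hk
  obtain ⟨hc, C, hC⟩ := hk
  exact ⟨fun z => intg hm hc hC z, diffb hm hc hC⟩

theorem a2 : HM.A2Stmt := by
  intro m k r hm hr hk
  obtain ⟨hc, C, hC⟩ := hk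
  exact ⟨_, fun z hz => growth hm hr hc hC hz⟩

end Vale.Agent.P352.HM.H23
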